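import Vale.Agent.P054.T2.H622.VertS

set_option autoImplicit false
set_option linter.all false

/-!
# P054 / T3: the vertical alternatives for all `n ≥ 2`

For `n = 2` there is one more alternative: the class lies in a maximal isotropic flat of wrong type.
-/

namespace Vale.Agent.P054.T3.H637

open Finset Module
open Vale.Agent.P054.T2
open Vale.Agent.P054.T2.H622
open Vale.Agent.P054.T2.H715
open Vale.Agent.P054.T2.H686 (Crd Qf Bf)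
open Vale.Agent.P054.T2.H930 (Pt ZData germ edgePt germ_eq_ker chain_rule)
open Vale.Agent.P054.T2.H192 (Iso thS thR hpt kp_core)
open Vale.Agent.P054.T2.H981 (toW baseW baseW_of_const side_V_eq quadric_zero)
open Vale.Agent.P054.T2.SecC (ZZ ZI pt ZInj GenI GenW EdgeS Side swp)

section half

variable {n e σ v : ℕ} {L : Type*} [Field L] [Algebra (MvPowerSeries (Fin e) ℝ) L]
  [IsFractionRing (MvPowerSeries (Fin e) ℝ) L] [Algebra ℝ L]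
  [IsScalarTower ℝ (MvPowerSeries (Fin e) ℝ) L]
  {E : Fin e → Derivation ℝ L L} {S R : Pt n → MvPowerSeries (Fin e) ℝ} {s r : ZZ n}
  {V₁ V₂ : Submodule ℝ (ZZ n)}

/-- **[VERT-N]** for one half, all `n` -/
theorem vertNW (h : HalfE n e σ v E S R s r V₁ V₂) (hV : V₁ = V₂) (hw : s - r ∈ V₂)
    (hiso : Iso V₂) (hgen : GenI V₂) (hσ : 1 ≤ σ) (hv : 1 ≤ v) :
    finrank ℝ V₂ ≤ 2 * σ ∨ (finrank ℝ V₂ = n + 1 ∧ ¬ ZInj V₂) := by
  classical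
  by_cases hbad : finrank ℝ V₂ = n + 1 ∧ ¬ ZInj V₂
  · exact Or.inr hbad
  left
  set V := V₂.comap (toW ℝ n : (Pt n → ℝ) →ₗ[ℝ] ZZ n) with hVdef
  have hfV : finrank ℝ V = finrank ℝ V₂ := finrank_comap_toW V₂
  have hle : finrank ℝ V₂ ≤ n + 1 := hiso.finrank_le
  have hz : ZInj V₂ := by
    by_contra hz
    have hd : finrank ℝ V₂ ≠ n + 1 := fun hd => hbad ⟨hd, hz⟩
    exact hz (hgen hle (Or.inl (lt_of_le_of_ne hle hd)))
  have hk : V ⊓ LinearMap.ker (z0 n) = ⊥ := by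
    rw [eq_bot_iff]
    rintro x ⟨hx1, hx2⟩
    have h1 : toW ℝ n x ∈ V₂ := hx1
    have h2 : (toW ℝ n x).1 = 0 := hx2
    exact (toW ℝ n).map_eq_zero_iff.1 (hz _ h1 h2)
  have hfd : FiniteDimensional L (Submodule.span L (Set.range E)) :=
    FiniteDimensional.span_of_finite L (Set.finite_range E)
  have hmain := H622.vertN (L := L) (Ds := Submodule.span L (Set.range E)) (lie_mem_span E h.hcomm)
    (dec_of_split h.hE S R h.split) (z0 n) (zL L n) (fun x => zL_cst x) V (σ := σ) (v := v)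
    (by rw [h.Sp_s, hV])
    (by
      rw [← h.Sp_r]
      rintro _ ⟨D, hD, rfl⟩
      exact mem_Sp _ _ hD)
    (h.sub_mem V₂ hw (le_of_eq hV) le_rfl)
    (by rw [hk, finrank_bot]; exact Nat.zero_le 1)
    (fun hb => absurd hk hb) hσ hv h.hT h.hVt (fun hb _ => absurd hk hb)
  exact (le_of_eq hfV.symm).trans hmain

end half

variable {n : ℕ}

/-- the vertical alternatives at an edge, for all `n ≥ 2` -/
structure VertW {A : Finset (ZZ n × ZZ n)} {Wt D σ₁ σ₂ v₁ v₂ : ℕ} (S₁ : Side n A Wt D σ₁ v₂)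
    (S₂ : Side n (swp A) Wt D σ₂ v₁) (e : ZZ n × ZZ n) : Prop where
  vertN : e.1 - e.2 ∈ S₁.V e → S₁.V e = S₂.V e.swap → Iso (S₁.V e) →
      (v₁ = 0 ∧ v₂ = 0) ∨ finrank ℝ (S₁.V e) ≤ 2 * σ₁ ∨ finrank ℝ (S₁.V e) ≤ 2 * σ₂ ∨
      (finrank ℝ (S₁.V e) = n + 1 ∧ ¬ ZInj (S₁.V e))
  vertA₁ : e.1 - e.2 ∉ S₁.V e → finrank ℝ (S₁.V e) = n →
      Iso (S₁.V e ⊔ Submodule.span ℝ {e.1 - e.2}) →
      ¬ ZInj (S₁.V e ⊔ Submodule.span ℝ {e.1 - e.2}) → v₂ ≠ 0 →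
      finrank ℝ (S₁.V e) ≤ 2 * σ₁ ∨ (e.1 - e.2 ∉ S₂.V e.swap ∧ finrank ℝ (S₂.V e.swap) < n)
  vertA₂ : e.1 - e.2 ∉ S₂.V e.swap → finrank ℝ (S₂.V e.swap) = n →
      Iso (S₂.V e.swap ⊔ Submodule.span ℝ {e.1 - e.2}) →
      ¬ ZInj (S₂.V e.swap ⊔ Submodule.span ℝ {e.1 - e.2}) → v₁ ≠ 0 →
      finrank ℝ (S₂.V e.swap) ≤ 2 * σ₂ ∨ (e.1 - e.2 ∉ S₁.V e ∧ finrank ℝ (S₁.V e) < n)

/-- **[VERT] at an edge**, for all `n ≥ 2` -/
theorem vert_edgeW {E0 E1 E2 : Finset (ZZ n × ZZ n)} {w : Crd n ⊕ Pt n → ℕ}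
    {N c₀ c₁ c₂ σ₁ σ₂ v₁ v₂ Wt D : ℕ} {A : Finset (ZZ n × ZZ n)}
    (Z : ZData ℝ n E0 E1 E2 w N c₀ c₁ c₂ σ₁ σ₂) (S₁ : Side n A Wt D σ₁ v₂)
    (S₂ : Side n (swp A) Wt D σ₂ v₁) {e : ZZ n × ZZ n} (he : e ∈ E2) (heA : e ∈ A)
    (hc₁ : c₁ + v₁ = 2 * (n + 1)) (hc₂ : c₂ + v₂ = 2 * (n + 1))
    (hc₀ : c₀ + (σ₁ + σ₂) = 2 * n + 1)
    (h1F : ∀ i, thS e.1 (Z.F i) ∈ germ (hpt e.1 e.2) (S₁.F e.1))
    (h2F : ∀ i, thR e.2 (Z.F i) ∈ germ (hpt e.2 e.1) (S₂.F e.2))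
    (hn : 2 ≤ n) (hE₁ : EdgeS S₁ e) (hE₂ : EdgeS S₂ e.swap)
    (hw₁ : e.1 - e.2 ∈ S₂.V e.swap → S₁.V e ≤ S₂.V e.swap)
    (hw₂ : e.1 - e.2 ∈ S₁.V e → S₂.V e.swap ≤ S₁.V e) : VertW S₁ S₂ e := by
  classical
  have hes : e.swap ∈ swp A := SecC.mem_swp.2 (by rw [Prod.swap_swap]; exact heA)
  obtain ⟨m, φ, E, H1, H2, hk1, hk2⟩ := exists_half Z S₁ S₂ he heA hes hc₁ hc₂ hc₀ h1F h2F
  have hneg : e.2 - e.1 = -(e.1 - e.2) := (neg_sub _ _).symm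
  have hspan : Submodule.span ℝ {e.2 - e.1} = Submodule.span ℝ {e.1 - e.2} := by
    rw [hneg]
    refine le_antisymm ?_ ?_
    · rw [Submodule.span_singleton_le_iff_mem]
      exact Submodule.neg_mem _ (Submodule.mem_span_singleton_self _)
    · rw [Submodule.span_singleton_le_iff_mem]
      have h1 := Submodule.neg_mem _ (Submodule.mem_span_singleton_self (R := ℝ) (-(e.1 - e.2)))
      rwa [neg_neg] at h1
  refine ⟨?_, ?_, ?_⟩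
  · intro hw hV hiso
    by_cases hv₂ : v₂ = 0
    · by_cases hv₁ : v₁ = 0
      · exact Or.inl ⟨hv₁, hv₂⟩
      · have hiso' : Iso (S₂.V e.swap) := hV ▸ hiso
        have h := vertNW H2 hV (by rw [hneg]; exact Submodule.neg_mem _ (hV ▸ hw)) hiso'
          (hE₂.geni) S₂.hσ1 (Nat.one_le_iff_ne_zero.2 hv₁)
        rw [← hV] at h
        rcases h with h | h
        · exact Or.inr (Or.inr (Or.inl h))
        · exact Or.inr (Or.inr (Or.inr h))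
    · rcases vertNW H1 hV.symm hw hiso hE₁.geni S₁.hσ1 (Nat.one_le_iff_ne_zero.2 hv₂) with h | h
      · exact Or.inr (Or.inl h)
      · exact Or.inr (Or.inr (Or.inr h))
  · intro hw hfr hiso _ hv
    have hlt : finrank ℝ (S₁.V e) < n + 1 := lt_of_le_of_lt (le_of_eq hfr) (Nat.lt_succ_self n)
    have hinj : ZInj (S₁.V e) := hE₁.geni hlt.le (Or.inl hlt)
    rcases H1.vertA hw hfr hiso hinj hn (Nat.one_le_iff_ne_zero.2 hv) with h | h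
    · right
      refine ⟨fun hc => ?_, h⟩
      have h1 : finrank ℝ (S₁.V e) ≤ finrank ℝ (S₂.V e.swap) := Submodule.finrank_mono (hw₁ hc)
      rw [hfr] at h1
      exact absurd h (Nat.not_lt.2 h1)
    · left
      rw [hfr]; exact h
  · intro hw hfr hiso _ hv
    have hlt : finrank ℝ (S₂.V e.swap) < n + 1 :=
      lt_of_le_of_lt (le_of_eq hfr) (Nat.lt_succ_self n)
    have hinj : ZInj (S₂.V e.swap) := hE₂.geni hlt.le (Or.inl hlt)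
    rcases H2.vertA (fun h => hw (by rw [hneg] at h; exact (Submodule.neg_mem_iff _).1 h)) hfr
      (by rw [hspan]; exact hiso) hinj hn (Nat.one_le_iff_ne_zero.2 hv) with h | h
    · right
      refine ⟨fun hc => ?_, h⟩
      have h1 : finrank ℝ (S₂.V e.swap) ≤ finrank ℝ (S₁.V e) := Submodule.finrank_mono (hw₂ hc)
      rw [hfr] at h1
      exact absurd h (Nat.not_lt.2 h1)
    · left
      rw [hfr]; exact h

open Vale.Agent.P054.T2.SecC (mem_swp EdgeB Ste)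
open Vale.Agent.P054.T2.H686 (E Ez Gm Ez_swap)
open Vale.Agent.P054.T2.H588 (mat kP edgeS_Ez edgeS_Ez_swap)
open Vale.Agent.P054.T2.H163 (StabP)
open MvPolynomial (rename)

/-- **[VERT]** at a good edge of `Ez`, for all `n ≥ 2` (letters of 163's `VertS`) -/
theorem vertSW (hn : 2 ≤ n) (E0 E1 A : Finset (ZZ n × ZZ n)) (W D N c₀ c₁ c₂ σ₁ σ₂ v₁ v₂ : ℕ)
    (Z : ZData ℝ n E0 E1 A (H94.wh W) N c₀ c₁ c₂ σ₁ σ₂)
    (S₁ : Side n A W D σ₁ v₂) (S₂ : Side n (swp A) W D σ₂ v₁)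
    (P : Finset (E n)) (B : E n ≃ₗᵢ[ℝ] E n) (β : ℕ) (hB : Gm P B) (e : ZZ n × ZZ n) (he : e ∈ A)
    (heE : e ∈ Ez P B β) (hc₀ : c₀ + (σ₁ + σ₂) = 2 * n + 1) (hc₁ : c₁ + v₁ = 2 * (n + 1))
    (hc₂ : c₂ + v₂ = 2 * (n + 1))
    (h1F : ∀ i, thS e.1 (Z.F i) ∈ germ (hpt e.1 e.2) (S₁.F e.1))
    (h2F : ∀ i, thR e.2 (Z.F i) ∈ germ (hpt e.2 e.1) (S₂.F e.2))
    (hst₁ : StabP P B (S₁.Pr e)) (hst₂ : StabP P B (S₂.Pr e.swap))
    (hw₁ : e.1 - e.2 ∈ S₂.V e.swap → S₁.V e ≤ S₂.V e.swap)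
    (hw₂ : e.1 - e.2 ∈ S₁.V e → S₂.V e.swap ≤ S₁.V e) : VertW S₁ S₂ e :=
  vert_edgeW Z S₁ S₂ he he hc₁ hc₂ hc₀ h1F h2F hn (edgeS_Ez hB S₁ he heE hst₁)
    (edgeS_Ez_swap hB S₂ he heE hst₂) hw₁ hw₂

/-- the output of section B at one good edge, for all `n ≥ 2`: `EdgeB` with the vertical
alternatives of `VertW` -/
structure EdgeW {A : Finset (ZZ n × ZZ n)} {W D σ₁ σ₂ v₁ v₂ : ℕ} (S₁ : Side n A W D σ₁ v₂)
    (S₂ : Side n (swp A) W D σ₂ v₁) (e : ZZ n × ZZ n) : Prop where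
  side₁ : EdgeS S₁ e
  side₂ : EdgeS S₂ e.swap
  hperp : ∀ a ∈ S₂.V e.swap, ∀ b ∈ S₁.V e, Bf a b = 0
  hw₁ : e.1 - e.2 ∈ S₂.V e.swap → S₁.V e ≤ S₂.V e.swap
  hw₂ : e.1 - e.2 ∈ S₁.V e → S₂.V e.swap ≤ S₁.V e
  ste : Ste S₁ e
  vert : VertW S₁ S₂ e

theorem EdgeW.of_edgeB {A : Finset (ZZ n × ZZ n)} {W D σ₁ σ₂ v₁ v₂ : ℕ} {S₁ : Side n A W D σ₁ v₂}
    {S₂ : Side n (swp A) W D σ₂ v₁} {e : ZZ n × ZZ n} (h : EdgeB S₁ S₂ e) : EdgeW S₁ S₂ e where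
  side₁ := h.side₁
  side₂ := h.side₂
  hperp := h.hperp
  hw₁ := h.hw₁
  hw₂ := h.hw₂
  ste := h.ste
  vert := ⟨fun a b c => (h.vertN a b c).imp_right fun h => h.imp_right Or.inl, h.vertA₁, h.vertA₂⟩

end Vale.Agent.P054.T3.H637
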