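import Vale.Agent.P054.T3.H637.CaseDim

set_option autoImplicit false
set_option linter.all false

/-!
# P054 / T3: the case theorem with a fourth alternative

For `n ≥ 3` the isotropic classes are bounded for `σ ≥ 2`; the edges in isotropic spaces of
dimension `≤ 2` with both classes large are left over (`PSEdge`).
-/

namespace Vale.Agent.P054.T3.H637

open MvPolynomial Finset Module
open Vale.Agent.P054.T2
open Vale.Agent.P054.T2.SecC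
open Vale.Agent.P054.T2.H163
open Vale.Agent.P054.T2.H686 (mu Qf Bf zt dists E IsoB)
open Vale.Agent.P054.T2.H192 (Iso)
open Vale.Agent.P054.T2.H455 (Sep)

variable {n : ℕ} {A : Finset (ZZ n × ZZ n)} {W D : ℕ}

/-- an isotropic edge left over by the class bounds: `σ₁ = σ₂ = 1`, `s - r` lies in the isotropic
space `V₁ = V₂` of dimension at most `2`, and both classes are large -/
structure PSEdge {σ₁ σ₂ v₁ v₂ : ℕ} (S₁ : Side n A W D σ₁ v₂)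
    (S₂ : Side n (swp A) W D σ₂ v₁) (G₁ G₂ : ℕ) (e : ZZ n × ZZ n) : Prop where
  s₁ : σ₁ = 1
  s₂ : σ₂ = 1
  mem : e.1 - e.2 ∈ S₁.V e
  eq : S₁.V e = S₂.V e.swap
  iso : Iso (S₁.V e)
  dim : finrank ℝ (S₁.V e) ≤ 2
  big₁ : G₁ < (S₁.cls e).card
  big₂ : G₂ < (S₂.cls e.swap).card

theorem edgeX_or_ps {σ₁ σ₂ v₁ v₂ : ℕ} (hn : 3 ≤ n) (S₁ : Side n A W D σ₁ v₂)
    (S₂ : Side n (swp A) W D σ₂ v₁) {G₁ G₂ : ℕ} (h₁ : 2 ≤ σ₁ → IsoE S₁ G₁)
    (h₂ : 2 ≤ σ₂ → IsoE S₂ G₂) {e : ZZ n × ZZ n} (he : e ∈ A) (hE : EdgeB S₁ S₂ e) :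
    EdgeX S₁ S₂ G₁ G₂ e ∨ PSEdge S₁ S₂ G₁ G₂ e := by
  by_cases hP : PSEdge S₁ S₂ G₁ G₂ e
  · exact Or.inr hP
  left
  have he2 : e.swap ∈ swp A := mem_swp.2 (by rwa [Prod.swap_swap])
  have hs1 := S₁.hσ1
  have hs2 := S₂.hσ1
  refine ⟨hE.side₁, hE.side₂, hE.hperp, hE.hw₁, hE.hw₂, hE.ste, ?_, ?_, ?_⟩
  · intro a1 a2 a3
    have hsup : S₁.V e ⊔ Submodule.span ℝ {e.1 - e.2} = S₁.V e :=
      sup_eq_left.2 ((Submodule.span_singleton_le_iff_mem _ _).2 a1)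
    have k1 : 2 ≤ σ₁ → finrank ℝ (S₁.V e) ≤ 2 * σ₁ → (S₁.cls e).card ≤ G₁ := fun h h' =>
      h₁ h e he (by rw [hsup]; exact a3) h' (Or.inl a1)
    have k2 : 2 ≤ σ₂ → finrank ℝ (S₁.V e) ≤ 2 * σ₂ → (S₂.cls e.swap).card ≤ G₂ := by
      intro h h'
      refine h₂ h e.swap he2 ?_ ?_ (Or.inl ?_)
      · rw [span_swap, ← a2, hsup]
        exact a3
      · rw [← a2]; exact h'
      · rw [mem_swap_iff, ← a2]; exact a1
    have k3 : σ₁ = 1 → σ₂ = 1 → finrank ℝ (S₁.V e) ≤ 2 →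
        (S₁.cls e).card ≤ G₁ ∨ (S₂.cls e.swap).card ≤ G₂ := by
      intro h h' h''
      by_contra hcon
      push Not at hcon
      exact hP ⟨h, h', a1, a2, a3, h'', hcon.1, hcon.2⟩
    rcases hE.vertN a1 a2 a3 with h | h | h
    · exact Or.inl h
    · right
      rcases Nat.lt_or_ge 1 σ₁ with h3 | h3
      · exact Or.inl (k1 h3 h)
      · have h4 : σ₁ = 1 := by omega
        have h5 : finrank ℝ (S₁.V e) ≤ 2 := h.trans (by omega)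
        rcases Nat.lt_or_ge 1 σ₂ with h6 | h6
        · exact Or.inr (k2 h6 (h5.trans (by omega)))
        · exact k3 h4 (by omega) h5
    · right
      rcases Nat.lt_or_ge 1 σ₂ with h3 | h3
      · exact Or.inr (k2 h3 h)
      · have h4 : σ₂ = 1 := by omega
        have h5 : finrank ℝ (S₁.V e) ≤ 2 := h.trans (by omega)
        rcases Nat.lt_or_ge 1 σ₁ with h6 | h6
        · exact Or.inl (k1 h6 (h5.trans (by omega)))
        · exact k3 (by omega) h4 h5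
  · intro a1 a2 a3 a4 a5
    rcases hE.vertA₁ a1 a2 a3 a4 a5 with h | h
    · have h2 : n ≤ 2 * σ₁ := (le_of_eq a2.symm).trans h
      exact Or.inl (h₁ (by omega) e he a3 h (Or.inr ⟨a1, a2, a4⟩))
    · exact Or.inr h
  · intro a1 a2 a3 a4 a5
    rcases hE.vertA₂ a1 a2 a3 a4 a5 with h | h
    · have h2 : n ≤ 2 * σ₂ := (le_of_eq a2.symm).trans h
      refine Or.inl (h₂ (by omega) e.swap he2 ?_ h (Or.inr ⟨?_, a2, ?_⟩))
      · rw [span_swap]; exact a3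
      · rw [mem_swap_iff]; exact a1
      · rw [span_swap]; exact a4
    · exact Or.inr h

/-- **the case theorem with the fourth alternative** (`n ≥ 3`) -/
theorem hcase_PS {σ₁ σ₂ v₁ v₂ : ℕ} (hn : 3 ≤ n) (S₁ : Side n A W D σ₁ v₂)
    (S₂ : Side n (swp A) W D σ₂ v₁) {N G₁ G₂ : ℕ} (h₁ : 2 ≤ σ₁ → IsoE S₁ G₁)
    (h₂ : 2 ≤ σ₂ → IsoE S₂ G₂) (hE : ∀ e ∈ A, EdgeB S₁ S₂ e)
    (hsep₁ : ∀ e ∈ A, Sep (fun e' : ZZ n × ZZ n => pt e'.2) N (S₁.cls e))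
    (hsep₂ : ∀ e ∈ swp A, Sep (fun e' : ZZ n × ZZ n => pt e'.2) N (S₂.cls e)) :
    ∀ e ∈ A, (S₁.Cnt (2 * N) G₁ e ∧ finrank ℝ (S₁.V e) ≤ n + 1) ∨
      (S₂.Cnt (2 * N) G₂ e.swap ∧ finrank ℝ (S₂.V e.swap) ≤ n + 1) ∨ BB S₁ S₂ e ∨
      PSEdge S₁ S₂ G₁ G₂ e := by
  intro e he
  rcases edgeX_or_ps hn S₁ S₂ h₁ h₂ he (hE e he) with h | h
  · rcases hcase_one S₁ S₂ (fun e he => (hE e he).ste) hsep₁ hsep₂ he h with h | h | h
    · exact Or.inl h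
    · exact Or.inr (Or.inl h)
    · exact Or.inr (Or.inr (Or.inl h))
  · exact Or.inr (Or.inr (Or.inr h))

end Vale.Agent.P054.T3.H637
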