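import Vale.Agent.P054.T2.H606.Fin
import Vale.Agent.P054.T2.H622.VertS
import Vale.Agent.P054.T2.H794.StabFin

set_option autoImplicit false
set_option linter.all false

/-!
# P054 / T3: the bound with loss, in every dimension, as a black box

`sex_all`: `Sex d (DC d) (d / 2)` for all `d ≥ 2` (this is the content of the hand-in `TwoOverD`);
`BB_all`: a set in dimension `m ≥ 2` with at most `t` distances has at most `C t ^ (m / 2 + ε)`
points.
-/

namespace Vale.Agent.P054.T3.H637

open Vale.Agent.P054I Vale.Agent.P054K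
open Vale.Agent.P054.T2
open Vale.Agent.P054.T2.H686

theorem mainIneq_all {n : ℕ} (hn : 3 ≤ n) : MainIneq n :=
  H84.mainIneq_of_mainAB (by omega) (SecC.mainAB_of_secB (by omega)
    (H163.secB_of (H622.vertS hn) (H930.zPackS n) (H94.leafS n) (H794.stabS n) (H701.gStarS n)))

/-- **the bound with loss in every dimension** -/
theorem sex_all (d : ℕ) (hd : 2 ≤ d) : Sex d (DC d) ((d : ℝ) / 2) := by
  refine H686.top sex_dc2 sex_dc3 ?_ d hd
  intro d hd hI
  obtain ⟨n, rfl⟩ : ∃ n, d = n + 1 := ⟨d - 1, by omega⟩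
  exact sex_of_main (by omega) hI (mainIneq_all (by omega))

/-- a set in dimension `m ≥ 2` with at most `t` distances has at most `C t ^ (m / 2 + ε)` points -/
theorem BB_all (m : ℕ) (hm : 2 ≤ m) (ε : ℝ) (hε : 0 < ε) :
    ∃ C : ℝ, 0 < C ∧ ∀ t : ℕ, 1 ≤ t → BB m t (C * (t : ℝ) ^ ((m : ℝ) / 2 + ε)) :=
  BB_of_sex (sex_all m hm) ε hε

end Vale.Agent.P054.T3.H637
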