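import Vale.Agent.P054.T3.H637.CaseDim
import Vale.Agent.P054.T3.H637.Lossy

set_option autoImplicit false
set_option linter.all false

/-!
# P054 / T3: points of `P × P` adjacent to one point, on flats of dimension `≤ n + 1`

`flatQ`: at most `C t ^ ((n + 1) / 2 + ε)`, a power less than `t ^ n` for `n ≥ 2`.
-/

namespace Vale.Agent.P054.T3.H637

open Vale.Agent.P054I Vale.Agent.P054K
open Vale.Agent.P054.T2
open Vale.Agent.P054.T2.H686
open Vale.Agent.P054.T2.SecC (ZZ)
open Module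

variable {n : ℕ}

/-- points on a line at one distance from a point: at most two -/
theorem card_line_sphere_le (S : Finset (E n)) (c : E n) (ρ : ℝ) (hS : ∀ y ∈ S, dist c y = ρ)
    (U : Submodule ℝ (E n)) (hU : finrank ℝ U ≤ 1) (hSU : ∀ y ∈ S, ∀ y' ∈ S, y - y' ∈ U) :
    S.card ≤ 2 := by
  classical
  by_contra hcon
  push Not at hcon
  obtain ⟨a, ha, b, hb, c', hc', hab, hac, hbc⟩ := Finset.two_lt_card.1 hcon
  obtain ⟨w, hw⟩ := finrank_le_one_iff.1 hU
  obtain ⟨α, hα⟩ := hw ⟨a - b, hSU a ha b hb⟩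
  obtain ⟨β, hβ⟩ := hw ⟨a - c', hSU a ha c' hc'⟩
  have hα' : α • (w : E n) = a - b := congrArg Subtype.val hα
  have hβ' : β • (w : E n) = a - c' := congrArg Subtype.val hβ
  have hα0 : α ≠ 0 := by
    rintro rfl
    rw [zero_smul] at hα'
    exact hab (sub_eq_zero.1 hα'.symm)
  have hβ0 : β ≠ 0 := by
    rintro rfl
    rw [zero_smul] at hβ'
    exact hac (sub_eq_zero.1 hβ'.symm)
  have key : ∀ x ∈ S, ∀ y ∈ S, inner ℝ (x - y) ((x - c) + (y - c)) = (0 : ℝ) := by
    intro x hx y hy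
    have h1 : ‖x - c‖ = ‖y - c‖ := by
      have h2 := hS x hx
      have h3 := hS y hy
      rw [dist_comm, dist_eq_norm] at h2 h3
      rw [h2, h3]
    have h4 : x - y = (x - c) - (y - c) := by abel
    rw [h4, real_inner_comm, real_inner_add_sub_eq_zero_iff]
    exact h1
  have h1 := key a ha b hb
  have h2 := key a ha c' hc'
  rw [← hα', inner_smul_left] at h1
  rw [← hβ', inner_smul_left] at h2
  simp only [conj_trivial, mul_eq_zero, hα0, hβ0, false_or] at h1 h2
  have h3 : inner ℝ (w : E n) (b - c') = (0 : ℝ) := by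
    have h4 : b - c' = ((a - c) + (b - c)) - ((a - c) + (c' - c)) := by abel
    rw [h4, inner_sub_right, h1, h2, sub_zero]
  have h5 : b - c' = (β - α) • (w : E n) := by
    rw [sub_smul, hα', hβ']; abel
  rw [h5, inner_smul_right, mul_eq_zero] at h3
  rcases h3 with h3 | h3
  · apply hbc
    rw [← sub_eq_zero, h5, h3, zero_smul]
  · have h6 : (w : E n) = 0 := inner_self_eq_zero.1 h3
    apply hbc
    rw [← sub_eq_zero, h5, h6, smul_zero]

/-- fibre counting over the first coordinate -/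
theorem card_le_fst {a t : ℕ} {g : ℝ} {k : ℝ} (hk : 0 ≤ k) (P : Finset (E n))
    (ht : (dists P).card ≤ t) (S : Finset (E n × E n)) (hS : ∀ s ∈ S, s.1 ∈ P)
    (U : Submodule ℝ (E n)) (hU : finrank ℝ U = a) (hSU : ∀ s ∈ S, ∀ s' ∈ S, s.1 - s'.1 ∈ U)
    (hg : BB a t g) (hf : ∀ T ⊆ S, (∀ s ∈ T, ∀ s' ∈ T, s.1 = s'.1) → (T.card : ℝ) ≤ k) :
    (S.card : ℝ) ≤ g * k := by
  classical
  have h1 : ((S.image Prod.fst).card : ℝ) ≤ g := by
    refine card_le_of_flat P (S.image Prod.fst) ?_ ht U hU ?_ hg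
    · intro x hx
      obtain ⟨s, hs, rfl⟩ := Finset.mem_image.1 hx
      exact hS s hs
    · intro x hx y hy
      obtain ⟨s, hs, rfl⟩ := Finset.mem_image.1 hx
      obtain ⟨s', hs', rfl⟩ := Finset.mem_image.1 hy
      exact hSU s hs s' hs'
  have h2 : ∀ x ∈ S.image Prod.fst, ((S.filter fun s => s.1 = x).card : ℝ) ≤ k := by
    intro x _
    refine hf _ (Finset.filter_subset _ _) fun s hs s' hs' => ?_
    rw [(Finset.mem_filter.1 hs).2, (Finset.mem_filter.1 hs').2]
  have h3 : (S.card : ℝ) = ∑ x ∈ S.image Prod.fst, ((S.filter fun s => s.1 = x).card : ℝ) := by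
    exact_mod_cast Finset.card_eq_sum_card_image Prod.fst S
  rw [h3]
  refine (Finset.sum_le_sum h2).trans ?_
  rw [Finset.sum_const, nsmul_eq_mul]
  exact mul_le_mul_of_nonneg_right h1 hk

/-- exponent of the number of points in dimension `m` -/
noncomputable def hx (m : ℕ) : ℝ := if m = 1 then 1 else (m : ℝ) / 2

theorem hx_nonneg (m : ℕ) : 0 ≤ hx m := by
  unfold hx
  split_ifs with h
  · norm_num
  · positivity

theorem hx_of_ne {m : ℕ} (h : m ≠ 1) : hx m = (m : ℝ) / 2 := by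
  unfold hx
  rw [if_neg h]

theorem hx_le {m k : ℕ} (h : m ≤ k) (hk : 2 ≤ k) : hx m ≤ (k : ℝ) / 2 := by
  have h1 : (m : ℝ) ≤ k := by exact_mod_cast h
  have h2 : (2 : ℝ) ≤ k := by exact_mod_cast hk
  unfold hx
  split_ifs with h
  · linarith
  · linarith

/-- all dimensions, one constant -/
theorem exists_BB_le (M : ℕ) (ε : ℝ) (hε : 0 < ε) :
    ∃ C : ℝ, 2 ≤ C ∧ ∀ m : ℕ, m ≤ M → ∀ t : ℕ, 1 ≤ t → BB m t (C * (t : ℝ) ^ (hx m + ε)) := by
  have key : ∀ m : ℕ, ∃ C : ℝ, 2 ≤ C ∧ ∀ t : ℕ, 1 ≤ t → BB m t (C * (t : ℝ) ^ (hx m + ε)) := by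
    intro m
    rcases Nat.lt_or_ge m 2 with hm | hm
    · refine ⟨2, le_rfl, fun t ht => ?_⟩
      have ht1 : (1 : ℝ) ≤ t := by exact_mod_cast ht
      interval_cases m
      · refine H83.BB.mono (BB_zero t) ?_
        have h1 : (1 : ℝ) ≤ (t : ℝ) ^ (hx 0 + ε) :=
          Real.one_le_rpow ht1 (by have := hx_nonneg 0; linarith)
        linarith
      · refine H83.BB.mono (BB_one t) ?_
        have h1 : (t : ℝ) ≤ (t : ℝ) ^ (hx 1 + ε) := by
          calc (t : ℝ) = (t : ℝ) ^ (1 : ℝ) := (Real.rpow_one _).symm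
            _ ≤ _ := Real.rpow_le_rpow_of_exponent_le ht1 (by unfold hx; simp; linarith)
        linarith
    · obtain ⟨C, hC, h1⟩ := BB_all m hm ε hε
      refine ⟨max C 2, le_max_right _ _, fun t ht => ?_⟩
      refine H83.BB.mono (h1 t ht) ?_
      rw [hx_of_ne (by omega)]
      have h3 : (0 : ℝ) ≤ (t : ℝ) ^ ((m : ℝ) / 2 + ε) := by positivity
      exact mul_le_mul_of_nonneg_right (le_max_left _ _) h3
  choose C hC1 hC using key
  have hsum : ∀ m, m ≤ M → C m ≤ ∑ m ∈ Finset.range (M + 1), C m := fun m hm =>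
    Finset.single_le_sum (f := C) (fun m _ => by linarith [hC1 m]) (Finset.mem_range.2 (by omega))
  refine ⟨∑ m ∈ Finset.range (M + 1), C m, (hC1 0).trans (hsum 0 (Nat.zero_le _)), ?_⟩
  intro m hm t ht
  refine H83.BB.mono (hC m t ht) ?_
  exact mul_le_mul_of_nonneg_right (hsum m hm) (by positivity)

/-- dimension of the projection and of the kernel -/
theorem finrank_map_add_ker (f : ZZ n →ₗ[ℝ] E n) (V : Submodule ℝ (ZZ n)) :
    finrank ℝ (V.map f) + finrank ℝ (V ⊓ LinearMap.ker f : Submodule ℝ (ZZ n)) =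
      finrank ℝ V := by
  have h1 := LinearMap.finrank_range_add_finrank_ker (f.domRestrict V)
  rw [LinearMap.range_domRestrict] at h1
  have h2 : finrank ℝ (LinearMap.ker (f.domRestrict V)) =
      finrank ℝ (V ⊓ LinearMap.ker f : Submodule ℝ (ZZ n)) := by
    have h3 : (LinearMap.ker (f.domRestrict V)).map V.subtype = V ⊓ LinearMap.ker f := by
      ext x
      simp only [Submodule.mem_map, LinearMap.mem_ker, LinearMap.domRestrict_apply,
        Submodule.subtype_apply, Subtype.exists, exists_and_left, exists_prop,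
        exists_eq_right_right, Submodule.mem_inf]
      exact ⟨fun h => ⟨h.2, h.1⟩, fun h => ⟨h.2, h.1⟩⟩
    rw [← h3]
    exact (LinearEquiv.finrank_eq (Submodule.equivMapOfInjective V.subtype
      V.injective_subtype _))
  rw [h2] at h1
  exact h1

/-- points of `P × P` in affine subspaces of dimension `≤ n + 1`, adjacent to one point, number at
most `Gf` -/
def FlatQ (n : ℕ) (P : Finset (E n)) (Gf : ℕ) : Prop :=
  ∀ (B : E n ≃ₗᵢ[ℝ] E n) (V : Submodule ℝ (ZZ n)) (z₀ : ZZ n) (s : E n × E n),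
    finrank ℝ V ≤ n + 1 → ∀ cl : Finset (E n × E n), cl ⊆ P ×ˢ P →
      (∀ r ∈ cl, zt B r - z₀ ∈ V) → (∀ r ∈ cl, Qf (zt B s - zt B r) = 0) → cl.card ≤ Gf

/-- one coordinate: the projection along the first coordinate when the kernel is at most a line,
or both dimensions differ from `1` -/
theorem half_count {a b t : ℕ} {C ε : ℝ} (hC : 2 ≤ C) (hε : 0 < ε) (ht1 : (1 : ℝ) ≤ t)
    (hn : 2 ≤ n) (P : Finset (E n)) (ht : (dists P).card ≤ t)
    (hBB : ∀ m, m ≤ n + 1 → BB m t (C * (t : ℝ) ^ (hx m + ε)))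
    (S : Finset (E n × E n)) (hS1 : ∀ s ∈ S, s.1 ∈ P) (hS2 : ∀ s ∈ S, s.2 ∈ P)
    (x x' : E n) (hadj : ∀ s ∈ S, dist x s.1 = dist x' s.2)
    (U U' : Submodule ℝ (E n)) (hU : finrank ℝ U = a) (hU' : finrank ℝ U' = b)
    (hab : a + b ≤ n + 1) (hSU : ∀ s ∈ S, ∀ s' ∈ S, s.1 - s'.1 ∈ U)
    (hSU' : ∀ s ∈ S, ∀ s' ∈ S, s.1 = s'.1 → s.2 - s'.2 ∈ U')
    (hcase : b ≤ 1 ∨ a ≠ 1) : (S.card : ℝ) ≤ C ^ 2 * (t : ℝ) ^ (((n : ℝ) + 1) / 2 + 2 * ε) := by
  classical
  have ht0 : (0 : ℝ) < t := by linarith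
  have hC0 : (0 : ℝ) ≤ C := by linarith
  have hn1 : ((n + 1 : ℕ) : ℝ) = (n : ℝ) + 1 := by push_cast; ring
  -- injectivity on the fibres
  have hfib : ∀ T ⊆ S, (∀ s ∈ T, ∀ s' ∈ T, s.1 = s'.1) → T.card = (T.image Prod.snd).card := by
    intro T hT h
    refine (Finset.card_image_of_injOn ?_).symm
    intro s hs s' hs' h2
    exact Prod.ext (h s hs s' hs') h2
  rcases Nat.lt_or_ge 1 b with hb | hb
  · -- both different from `1`
    have ha : a ≠ 1 := hcase.resolve_left (by omega)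
    have h1 := card_le_fst (k := C * (t : ℝ) ^ (hx b + ε)) (by positivity) P ht S hS1 U hU hSU
      (hBB a (by omega)) (by
        intro T hT h
        rw [hfib T hT h]
        refine card_le_of_flat P (T.image Prod.snd) ?_ ht U' hU' ?_ (hBB b (by omega))
        · intro y hy
          obtain ⟨s, hs, rfl⟩ := Finset.mem_image.1 hy
          exact hS2 s (hT hs)
        · intro y hy y' hy'
          obtain ⟨s, hs, rfl⟩ := Finset.mem_image.1 hy
          obtain ⟨s', hs', rfl⟩ := Finset.mem_image.1 hy'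
          exact hSU' s (hT hs) s' (hT hs') (h s hs s' hs'))
    refine h1.trans ?_
    have h2 : (C * (t : ℝ) ^ (hx a + ε)) * (C * (t : ℝ) ^ (hx b + ε)) =
        C ^ 2 * (t : ℝ) ^ ((hx a + hx b) + 2 * ε) := by
      have h3 : (t : ℝ) ^ ((hx a + hx b) + 2 * ε) =
          (t : ℝ) ^ (hx a + ε) * (t : ℝ) ^ (hx b + ε) := by
        rw [← Real.rpow_add ht0]
        congr 1
        ring
      rw [h3]; ring
    rw [h2]
    refine mul_le_mul_of_nonneg_left ?_ (by positivity)
    refine Real.rpow_le_rpow_of_exponent_le ht1 ?_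
    rw [hx_of_ne ha, hx_of_ne (by omega)]
    have h4 : (a : ℝ) + b ≤ n + 1 := by exact_mod_cast hab
    linarith
  · -- the kernel is at most a line
    have h1 := card_le_fst (k := C) hC0 P ht S hS1 U hU hSU (hBB a (by omega)) (by
        intro T hT h
        rw [hfib T hT h]
        rcases T.eq_empty_or_nonempty with rfl | ⟨s₀, hs₀⟩
        · simpa using hC0
        have h2 : (T.image Prod.snd).card ≤ 2 := by
          refine card_line_sphere_le _ x' (dist x s₀.1) ?_ U' (by omega) ?_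
          · intro y hy
            obtain ⟨s, hs, rfl⟩ := Finset.mem_image.1 hy
            rw [← hadj s (hT hs), h s hs s₀ hs₀]
          · intro y hy y' hy'
            obtain ⟨s, hs, rfl⟩ := Finset.mem_image.1 hy
            obtain ⟨s', hs', rfl⟩ := Finset.mem_image.1 hy'
            exact hSU' s (hT hs) s' (hT hs') (h s hs s' hs')
        have h3 : ((T.image Prod.snd).card : ℝ) ≤ 2 := by exact_mod_cast h2
        linarith)
    refine h1.trans ?_
    have h2 : C * (t : ℝ) ^ (hx a + ε) * C = C ^ 2 * (t : ℝ) ^ (hx a + ε) := by ring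
    rw [h2]
    refine mul_le_mul_of_nonneg_left ?_ (by positivity)
    refine Real.rpow_le_rpow_of_exponent_le ht1 ?_
    have h3 := hx_le (m := a) (k := n + 1) (by omega) (by omega)
    rw [hn1] at h3
    linarith

/-- **points of `P × P` adjacent to one point in flats of dimension `≤ n + 1`**: at most
`C t ^ ((n + 1) / 2 + ε)`, a power less than `t ^ n` for `n ≥ 2`. -/
theorem flatQ (hn : 2 ≤ n) (ε : ℝ) (hε : 0 < ε) :
    ∃ C : ℝ, 1 ≤ C ∧ ∀ t : ℕ, 1 ≤ t → ∀ P : Finset (E n), (dists P).card ≤ t →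
      FlatQ n P ⌊C * (t : ℝ) ^ (((n : ℝ) + 1) / 2 + ε)⌋₊ := by
  classical
  obtain ⟨C, hC2, hC⟩ := exists_BB_le (n + 1) (ε / 2) (by linarith)
  refine ⟨C ^ 2, one_le_pow₀ (by linarith), fun t ht P hP B V z₀ s hV cl hcl hclV hcls => ?_⟩
  have ht1 : (1 : ℝ) ≤ t := by exact_mod_cast ht
  apply Nat.le_floor
  have hBB : ∀ m, m ≤ n + 1 → BB m t (C * (t : ℝ) ^ (hx m + ε / 2)) := fun m hm => hC m hm t ht
  have hdiff : ∀ r ∈ cl, ∀ r' ∈ cl, zt B r - zt B r' ∈ V := by
    intro r hr r' hr'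
    have := V.sub_mem (hclV r hr) (hclV r' hr')
    rwa [sub_sub_sub_cancel_right] at this
  have hadj : ∀ r ∈ cl, dist s.1 r.1 = dist s.2 r.2 := fun r hr =>
    (Qf_zt_sub_eq_zero B s r).1 (hcls r hr)
  have hP1 : ∀ r ∈ cl, r.1 ∈ P := fun r hr => (Finset.mem_product.1 (hcl hr)).1
  have hP2 : ∀ r ∈ cl, r.2 ∈ P := fun r hr => (Finset.mem_product.1 (hcl hr)).2
  have h2ε : (2 : ℝ) * (ε / 2) = ε := by ring
  set a := finrank ℝ (V.map (toX (n := n))) with ha
  set b := finrank ℝ (V ⊓ LinearMap.ker (toX (n := n)) : Submodule ℝ _) with hb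
  set a' := finrank ℝ (V.map (toY (n := n))) with ha'
  set b' := finrank ℝ (V ⊓ LinearMap.ker (toY (n := n)) : Submodule ℝ _) with hb'
  have hab : a + b ≤ n + 1 := (finrank_map_add_ker toX V).le.trans hV
  have hab' : a' + b' ≤ n + 1 := (finrank_map_add_ker toY V).le.trans hV
  -- the linear maps on differences
  have hX : ∀ r r' : E n × E n, toX (zt B r - zt B r') = r.1 - r'.1 := by
    intro r r'
    rw [map_sub, toX_zt, toX_zt]
  have hY : ∀ r r' : E n × E n, toY (zt B r - zt B r') = B (r.2 - r'.2) := by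
    intro r r'
    rw [map_sub, toY_zt, toY_zt, map_sub]
  -- the kernels
  set K' : Submodule ℝ (E n) := ((V ⊓ LinearMap.ker (toX (n := n))).map (toY (n := n))).map
    (B.symm.toLinearEquiv : E n →ₗ[ℝ] E n) with hK'
  have hK'b : finrank ℝ K' = b := by
    rw [hK', LinearEquiv.finrank_map_eq, hb]
    have hinj' : Function.Injective ((toY (n := n)).domRestrict
        (V ⊓ LinearMap.ker (toX (n := n)))) := by
      rw [injective_iff_map_eq_zero]
      intro w hw
      exact Subtype.ext (eq_zero_of_toX_toY (LinearMap.mem_ker.1 w.2.2) hw)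
    have h2 := LinearMap.finrank_range_of_inj hinj'
    rw [LinearMap.range_domRestrict] at h2
    exact h2
  set K : Submodule ℝ (E n) := (V ⊓ LinearMap.ker (toY (n := n))).map (toX (n := n)) with hK
  have hKb : finrank ℝ K = b' := by
    rw [hK, hb']
    have hinj' : Function.Injective ((toX (n := n)).domRestrict
        (V ⊓ LinearMap.ker (toY (n := n)))) := by
      rw [injective_iff_map_eq_zero]
      intro w hw
      exact Subtype.ext (eq_zero_of_toX_toY hw (LinearMap.mem_ker.1 w.2.2))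
    have h2 := LinearMap.finrank_range_of_inj hinj'
    rw [LinearMap.range_domRestrict] at h2
    exact h2
  by_cases hc : b ≤ 1 ∨ a ≠ 1
  · have h1 := half_count (a := a) (b := b) hC2 (by linarith : 0 < ε / 2) ht1 hn P hP hBB cl hP1
      hP2 s.1 s.2 hadj (V.map (toX (n := n))) K' ha.symm hK'b hab
      (fun r hr r' hr' => ⟨zt B r - zt B r', hdiff r hr r' hr', hX r r'⟩) (by
        intro r hr r' hr' h
        refine ⟨B (r.2 - r'.2), ⟨zt B r - zt B r', ⟨hdiff r hr r' hr', ?_⟩, hY r r'⟩,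
          B.symm_apply_apply _⟩
        rw [SetLike.mem_coe, LinearMap.mem_ker, hX, h, sub_self]) hc
    rwa [h2ε] at h1
  · -- `a = 1`: exchange the coordinates
    push Not at hc
    have hb1 : b' ≤ 1 := by
      have h1 : K ≤ V.map (toX (n := n)) := Submodule.map_mono inf_le_left
      have h2 := Submodule.finrank_mono h1
      omega
    set U : Submodule ℝ (E n) := (V.map (toY (n := n))).map
      (B.symm.toLinearEquiv : E n →ₗ[ℝ] E n) with hU
    have hUa : finrank ℝ U = a' := by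
      rw [hU, LinearEquiv.finrank_map_eq]
    have h1 := half_count (a := a') (b := b') hC2 (by linarith : 0 < ε / 2) ht1 hn P hP hBB
      (cl.image Prod.swap) (by
        intro r hr
        obtain ⟨r', hr', rfl⟩ := Finset.mem_image.1 hr
        exact hP2 r' hr') (by
        intro r hr
        obtain ⟨r', hr', rfl⟩ := Finset.mem_image.1 hr
        exact hP1 r' hr') s.2 s.1 (by
        intro r hr
        obtain ⟨r', hr', rfl⟩ := Finset.mem_image.1 hr
        exact (hadj r' hr').symm) U K hUa hKb hab' (by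
        intro r hr r' hr'
        obtain ⟨q, hq, rfl⟩ := Finset.mem_image.1 hr
        obtain ⟨q', hq', rfl⟩ := Finset.mem_image.1 hr'
        exact ⟨B (q.2 - q'.2), ⟨zt B q - zt B q', hdiff q hq q' hq', hY q q'⟩,
          B.symm_apply_apply _⟩) (by
        intro r hr r' hr' h
        obtain ⟨q, hq, rfl⟩ := Finset.mem_image.1 hr
        obtain ⟨q', hq', rfl⟩ := Finset.mem_image.1 hr'
        have h' : q.2 = q'.2 := h
        refine ⟨zt B q - zt B q', ⟨hdiff q hq q' hq', ?_⟩, hX q q'⟩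
        rw [SetLike.mem_coe, LinearMap.mem_ker, hY, h', sub_self, map_zero]) (Or.inl hb1)
    rw [Finset.card_image_of_injective _ Prod.swap_injective, h2ε] at h1
    exact h1

end Vale.Agent.P054.T3.H637
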