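import Vale.Agent.P054.T3.H637.D3Iso
import Vale.Agent.P054.T3.H637.VertW

set_option autoImplicit false
set_option linter.all false

/-!
# P054 / T3, d = 3: the case theorem for `n = 2`

Hypothesis: no rich isometries of determinant `dt B` at the edges.
-/

namespace Vale.Agent.P054.T3.H637

open MvPolynomial Finset Module
open Vale.Agent.P054.T2
open Vale.Agent.P054.T2.SecC
open Vale.Agent.P054.T2.H163
open Vale.Agent.P054.T2.H686 (mu Qf Bf zt dists E IsoB)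
open Vale.Agent.P054.T2.H192 (Iso)
open Vale.Agent.P054.T2.H455 (Sep)

variable {n : ℕ} {A : Finset (ZZ n × ZZ n)} {W D : ℕ}

theorem NoRich.symm {P : Finset (E n)} {M : ℕ} {ε : ℝ} {s r : E n × E n}
    (h : NoRich P M ε s r) : NoRich P M ε r s := by
  intro Φ hΦ h1 cl hcl hx
  have h2 : r.1 - s.1 = Φ (r.2 - s.2) := by
    rw [← neg_sub, h1, ← map_neg, neg_sub]
  refine h Φ hΦ h2 cl hcl fun x hx' => ?_
  have h3 := hx x hx'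
  have h4 : x.1 - s.1 = (x.1 - r.1) + (r.1 - s.1) := by abel
  have h5 : x.2 - s.2 = (x.2 - r.2) + (r.2 - s.2) := by abel
  rw [h4, h3, h2, ← map_add, ← h5]

theorem NoRich.mono {P : Finset (E n)} {M M' : ℕ} {ε : ℝ} {s r : E n × E n}
    (h : NoRich P M ε s r) (hM : M ≤ M') : NoRich P M' ε s r :=
  fun Φ hΦ h1 cl hcl hx => (h Φ hΦ h1 cl hcl hx).trans hM

theorem edgeX_of_edgeW {σ₁ σ₂ v₁ v₂ : ℕ} (hn : n = 2) (S₁ : Side n A W D σ₁ v₂)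
    (S₂ : Side n (swp A) W D σ₂ v₁) {P : Finset (E n)} {M G₁ G₂ : ℕ} (B : E n ≃ₗᵢ[ℝ] E n)
    (hA1 : ∀ e ∈ A, ∃ s ∈ P ×ˢ P, e.1 = zt B s) (hA2 : ∀ e ∈ A, ∃ r ∈ P ×ˢ P, e.2 = zt B r)
    (h₁ : 2 ≤ σ₁ → IsoE S₁ G₁) (h₂ : 2 ≤ σ₂ → IsoE S₂ G₂) (hM₁ : M ≤ G₁) (hM₂ : M ≤ G₂)
    {e : ZZ n × ZZ n} (he : e ∈ A) {s r : E n × E n} (hs : e.1 = zt B s) (hr : e.2 = zt B r)
    (hN : NoRich P M (dt B) s r) (hE : EdgeW S₁ S₂ e) : EdgeX S₁ S₂ G₁ G₂ e := by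
  have he2 : e.swap ∈ swp A := mem_swp.2 (by rwa [Prod.swap_swap])
  have hA1' : ∀ e ∈ swp A, ∃ r ∈ P ×ˢ P, e.2 = zt B r := fun e he => hA1 e.swap (mem_swp.1 he)
  have hs1 := S₁.hσ1
  have hs2 := S₂.hσ1
  have h1n : ((-1 : ℝ) ^ n) = 1 := by rw [hn]; norm_num
  have hdt : ((-1 : ℝ) ^ n * dt B) = dt B := by rw [h1n, one_mul]
  -- the two class bounds
  have c1 : Iso (S₁.V e ⊔ Submodule.span ℝ {e.1 - e.2}) →
      (finrank ℝ (S₁.V e ⊔ Submodule.span ℝ {e.1 - e.2} : Submodule ℝ (ZZ n)) ≤ n ∨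
      (finrank ℝ (S₁.V e ⊔ Submodule.span ℝ {e.1 - e.2} : Submodule ℝ (ZZ n)) = n + 1 ∧
      ¬ ZInj (S₁.V e ⊔ Submodule.span ℝ {e.1 - e.2}))) → (S₁.cls e).card ≤ G₁ := fun hI hd =>
    (card_cls_of_noRich S₁ B hA2 he hs hr (by rw [hdt]; exact hN) hE.side₁ hI hd).trans hM₁
  have c2 : Iso (S₂.V e.swap ⊔ Submodule.span ℝ {e.1 - e.2}) →
      (finrank ℝ (S₂.V e.swap ⊔ Submodule.span ℝ {e.1 - e.2} : Submodule ℝ (ZZ n)) ≤ n ∨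
      (finrank ℝ (S₂.V e.swap ⊔ Submodule.span ℝ {e.1 - e.2} : Submodule ℝ (ZZ n)) = n + 1 ∧
      ¬ ZInj (S₂.V e.swap ⊔ Submodule.span ℝ {e.1 - e.2}))) → (S₂.cls e.swap).card ≤ G₂ := by
    intro hI hd
    refine (card_cls_of_noRich S₂ B hA1' he2 (s := r) (r := s) hr hs
      (by rw [hdt]; exact hN.symm) hE.side₂ ?_ ?_).trans hM₂
    · rwa [span_swap]
    · rwa [span_swap]
  refine ⟨hE.side₁, hE.side₂, hE.hperp, hE.hw₁, hE.hw₂, hE.ste, ?_, ?_, ?_⟩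
  · intro a1 a2 a3
    have hsup : S₁.V e ⊔ Submodule.span ℝ {e.1 - e.2} = S₁.V e :=
      sup_eq_left.2 ((Submodule.span_singleton_le_iff_mem _ _).2 a1)
    have hsup2 : S₂.V e.swap ⊔ Submodule.span ℝ {e.1 - e.2} = S₁.V e := by rw [← a2, hsup]
    rw [hsup] at c1
    rw [hsup2] at c2
    rcases hE.vert.vertN a1 a2 a3 with h | h | h | h
    · exact Or.inl h
    · right; left
      rcases Nat.lt_or_ge 1 σ₁ with h3 | h3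
      · exact h₁ h3 e he (by rw [hsup]; exact a3) h (Or.inl a1)
      · exact c1 a3 (Or.inl (h.trans (by omega)))
    · right; right
      rcases Nat.lt_or_ge 1 σ₂ with h3 | h3
      · refine h₂ h3 e.swap he2 ?_ ?_ (Or.inl ?_)
        · rw [span_swap, hsup2]
          exact a3
        · rw [← a2]; exact h
        · rw [mem_swap_iff, ← a2]; exact a1
      · exact c2 a3 (Or.inl (h.trans (by omega)))
    · exact Or.inr (Or.inl (c1 a3 (Or.inr h)))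
  · intro a1 a2 a3 a4 a5
    refine Or.inl (c1 a3 (Or.inr ⟨?_, a4⟩))
    rw [H192.finrank_sup_span _ a1, a2]
  · intro a1 a2 a3 a4 a5
    refine Or.inl (c2 a3 (Or.inr ⟨?_, a4⟩))
    rw [H192.finrank_sup_span _ a1, a2]

/-- **the case theorem for `n = 2`**: no fourth alternative -/
theorem hcase_N2 {σ₁ σ₂ v₁ v₂ : ℕ} (hn : n = 2) (S₁ : Side n A W D σ₁ v₂)
    (S₂ : Side n (swp A) W D σ₂ v₁) {P : Finset (E n)} {N M G₁ G₂ : ℕ} (B : E n ≃ₗᵢ[ℝ] E n)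
    (hA1 : ∀ e ∈ A, ∃ s ∈ P ×ˢ P, e.1 = zt B s) (hA2 : ∀ e ∈ A, ∃ r ∈ P ×ˢ P, e.2 = zt B r)
    (h₁ : 2 ≤ σ₁ → IsoE S₁ G₁) (h₂ : 2 ≤ σ₂ → IsoE S₂ G₂) (hM₁ : M ≤ G₁) (hM₂ : M ≤ G₂)
    (hN : ∀ e ∈ A, ∀ s r : E n × E n, e.1 = zt B s → e.2 = zt B r → NoRich P M (dt B) s r)
    (hE : ∀ e ∈ A, EdgeW S₁ S₂ e)
    (hsep₁ : ∀ e ∈ A, Sep (fun e' : ZZ n × ZZ n => pt e'.2) N (S₁.cls e))
    (hsep₂ : ∀ e ∈ swp A, Sep (fun e' : ZZ n × ZZ n => pt e'.2) N (S₂.cls e)) :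
    ∀ e ∈ A, (S₁.Cnt (2 * N) G₁ e ∧ finrank ℝ (S₁.V e) ≤ n + 1) ∨
      (S₂.Cnt (2 * N) G₂ e.swap ∧ finrank ℝ (S₂.V e.swap) ≤ n + 1) ∨ BB S₁ S₂ e := by
  intro e he
  obtain ⟨s, -, hs⟩ := hA1 e he
  obtain ⟨r, -, hr⟩ := hA2 e he
  exact hcase_one S₁ S₂ (fun e he => (hE e he).ste) hsep₁ hsep₂ he
    (edgeX_of_edgeW hn S₁ S₂ B hA1 hA2 h₁ h₂ hM₁ hM₂ he hs hr (hN e he s r hs hr) (hE e he))

end Vale.Agent.P054.T3.H637
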