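import Vale.Agent.P054.T2.H163.CasesP

set_option autoImplicit false
set_option linter.all false

/-!
# P054 / T3: the case theorem of section C, flexible form

* the vertical alternatives of `EdgeB` are replaced by direct bounds for the class of the edge
  (`EdgeX`), so that edge-dependent hypotheses about isotropic flats can be used;
* side `i` is used for counting only if the span of the moving end point has dimension `≤ n + 1`,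
  and this is recorded.
-/

namespace Vale.Agent.P054.T3.H637

open MvPolynomial Finset Module
open Vale.Agent.P054.T2
open Vale.Agent.P054.T2.SecC
open Vale.Agent.P054.T2.H163
open Vale.Agent.P054.T2.H686 (mu Qf Bf zt dists E IsoB)
open Vale.Agent.P054.T2.H580 (Vw hilbF)
open Vale.Agent.P054.T2.H930 (germ grad)
open Vale.Agent.P054.T2.H192 (Iso)
open Vale.Agent.P054.T2.H455 (Sep)

variable {n : ℕ} {A : Finset (ZZ n × ZZ n)} {W D σ v : ℕ}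

/-- `EdgeB` with the vertical alternatives stated as bounds of the class: `G₁`, `G₂` bound the
classes of the edge from the first and from the second end point. -/
structure EdgeX {σ₁ σ₂ v₁ v₂ : ℕ} (S₁ : Side n A W D σ₁ v₂)
    (S₂ : Side n (swp A) W D σ₂ v₁) (G₁ G₂ : ℕ) (e : ZZ n × ZZ n) : Prop where
  side₁ : EdgeS S₁ e
  side₂ : EdgeS S₂ e.swap
  hperp : ∀ a ∈ S₂.V e.swap, ∀ b ∈ S₁.V e, Bf a b = 0
  hw₁ : e.1 - e.2 ∈ S₂.V e.swap → S₁.V e ≤ S₂.V e.swap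
  hw₂ : e.1 - e.2 ∈ S₁.V e → S₂.V e.swap ≤ S₁.V e
  ste : Ste S₁ e
  vertN : e.1 - e.2 ∈ S₁.V e → S₁.V e = S₂.V e.swap → Iso (S₁.V e) →
    (v₁ = 0 ∧ v₂ = 0) ∨ (S₁.cls e).card ≤ G₁ ∨ (S₂.cls e.swap).card ≤ G₂
  vertA₁ : e.1 - e.2 ∉ S₁.V e → finrank ℝ (S₁.V e) = n →
    Iso (S₁.V e ⊔ Submodule.span ℝ {e.1 - e.2}) →
    ¬ ZInj (S₁.V e ⊔ Submodule.span ℝ {e.1 - e.2}) → v₂ ≠ 0 →
    (S₁.cls e).card ≤ G₁ ∨ (e.1 - e.2 ∉ S₂.V e.swap ∧ finrank ℝ (S₂.V e.swap) < n)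
  vertA₂ : e.1 - e.2 ∉ S₂.V e.swap → finrank ℝ (S₂.V e.swap) = n →
    Iso (S₂.V e.swap ⊔ Submodule.span ℝ {e.1 - e.2}) →
    ¬ ZInj (S₂.V e.swap ⊔ Submodule.span ℝ {e.1 - e.2}) → v₁ ≠ 0 →
    (S₂.cls e.swap).card ≤ G₂ ∨ (e.1 - e.2 ∉ S₁.V e ∧ finrank ℝ (S₁.V e) < n)

/-- case (A'), one side -/
theorem cnt_A'x (S : Side n A W D σ v) {e : ZZ n × ZZ n} (he : e ∈ A) (hE : EdgeS S e)
    (hw : e.1 - e.2 ∉ S.V e) (hd : finrank ℝ (S.V e) = n)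
    (hI : Iso (S.V e ⊔ Submodule.span ℝ {e.1 - e.2})) {N G : ℕ} {Q : Prop}
    (hv : ¬ ZInj (S.V e ⊔ Submodule.span ℝ {e.1 - e.2}) → v ≠ 0 →
      (S.cls e).card ≤ G ∨ Q)
    (hsep : Sep (fun e' : ZZ n × ZZ n => pt e'.2) N (S.cls e)) :
    S.Cnt N G e ∨ Q := by
  have hd1 : finrank ℝ ↥(S.V e ⊔ Submodule.span ℝ {e.1 - e.2}) = n + 1 := by
    rw [H192.finrank_sup_span _ hw, hd]
  by_cases hz : ZInj (S.V e ⊔ Submodule.span ℝ {e.1 - e.2})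
  · exact Or.inl (cnt_lin S he hw hz hsep G)
  by_cases hv0 : v = 0
  · exact Or.inl (H431.cnt_wrong_off S hv0 he hE hw hI hd1 hz N G hsep)
  · rcases hv hz hv0 with h | h
    · exact Or.inl (Or.inl h)
    · exact Or.inr h

/-- **the case theorem** with dimensions, for one edge: countable from one end, whose direction
space has dimension at most `n + 1`, or bad x bad -/
theorem hcase_one {σ₁ σ₂ v₁ v₂ : ℕ} (S₁ : Side n A W D σ₁ v₂) (S₂ : Side n (swp A) W D σ₂ v₁)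
    {N G₁ G₂ : ℕ} (hste : ∀ e ∈ A, Ste S₁ e)
    (hsep₁ : ∀ e ∈ A, Sep (fun e' : ZZ n × ZZ n => pt e'.2) N (S₁.cls e))
    (hsep₂ : ∀ e ∈ swp A, Sep (fun e' : ZZ n × ZZ n => pt e'.2) N (S₂.cls e))
    {e : ZZ n × ZZ n} (he : e ∈ A) (hEe : EdgeX S₁ S₂ G₁ G₂ e) :
    (S₁.Cnt (2 * N) G₁ e ∧ finrank ℝ (S₁.V e) ≤ n + 1) ∨
      (S₂.Cnt (2 * N) G₂ e.swap ∧ finrank ℝ (S₂.V e.swap) ≤ n + 1) ∨ BB S₁ S₂ e := by
  have he2 : e.swap ∈ swp A := mem_swp.2 (by rwa [Prod.swap_swap])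
  have hs1 := hsep₁ e he
  have hs2 := hsep₂ e.swap he2
  have h2N : N ≤ 2 * N := by omega
  have hiso1' : Iso (S₁.V e) → ∀ b ∈ S₁.V e, Bf (e.1 - e.2) b = 0 := fun h => S₁.iso_perp he h
  have hneg : ∀ b, Bf (e.1 - e.2) b = - Bf (e.swap.1 - e.swap.2) b := by
    intro b
    rw [sub_swap]
    unfold Bf
    rw [← Finset.sum_neg_distrib]
    refine Finset.sum_congr rfl fun i _ => ?_
    simp only [Prod.fst_neg, Prod.snd_neg, Pi.neg_apply]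
    ring
  have hiso2' : Iso (S₂.V e.swap) → ∀ b ∈ S₂.V e.swap, Bf (e.1 - e.2) b = 0 := by
    intro h b hb
    rw [hneg, S₂.iso_perp he2 h b hb, neg_zero]
  rcases H192.tree (k := ℝ) two_ne_zero (S₂.V e.swap) (S₁.V e) (e.1 - e.2) hEe.hperp hiso2' hiso1'
    hEe.hw₁ hEe.hw₂ with ⟨h1, h2, h3⟩ | ⟨h1, h2, h3, h4⟩ | ⟨h1, h2, h3⟩ | ⟨h1, h2, h3, h4⟩ |
    ⟨h1, h2, h3, h4, h5, h6, h7, h8⟩ | ⟨h1, h2, h3, h4⟩
  · -- (A0)
    exact Or.inl ⟨cnt_mono_N S₁ h2N (cnt_A0 S₁ he hEe.side₁ h1 h2 h3 hs1 G₁),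
      h2.trans (Nat.le_succ n)⟩
  · -- (A')
    rcases cnt_A'x S₁ he hEe.side₁ h1 h2 h3 (hEe.vertA₁ h1 h2 h3) hs1 with h | ⟨h5, h6⟩
    · exact Or.inl ⟨cnt_mono_N S₁ h2N h, (le_of_eq h2).trans (Nat.le_succ n)⟩
    · refine Or.inr (Or.inl ⟨cnt_mono_N S₂ h2N (cnt_A0 S₂ he2 hEe.side₂ ?_ h6.le (Or.inl h6)
        hs2 G₂), h6.le.trans (Nat.le_succ n)⟩)
      rwa [mem_swap_iff]
  · -- (B0)
    refine Or.inr (Or.inl ⟨cnt_mono_N S₂ h2N (cnt_A0 S₂ he2 hEe.side₂ ?_ h2 ?_ hs2 G₂),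
      h2.trans (Nat.le_succ n)⟩)
    · rwa [mem_swap_iff]
    · rwa [span_swap]
  · -- (B')
    have h1' : e.swap.1 - e.swap.2 ∉ S₂.V e.swap := by rwa [mem_swap_iff]
    have h3' : Iso (S₂.V e.swap ⊔ Submodule.span ℝ {e.swap.1 - e.swap.2}) := by rwa [span_swap]
    rcases cnt_A'x S₂ he2 hEe.side₂ h1' h2 h3' (by
      rw [span_swap]
      exact hEe.vertA₂ h1 h2 h3) hs2 with h | ⟨h5, h6⟩
    · exact Or.inr (Or.inl ⟨cnt_mono_N S₂ h2N h, (le_of_eq h2).trans (Nat.le_succ n)⟩)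
    · exact Or.inl ⟨cnt_mono_N S₁ h2N (cnt_A0 S₁ he hEe.side₁ h5 h6.le (Or.inl h6) hs1 G₁),
        h6.le.trans (Nat.le_succ n)⟩
  · -- (C)
    have hz : ZInj (S₁.V e) := hEe.side₁.geni (le_of_eq h4) (Or.inr h8)
    exact Or.inl ⟨cnt_ste S₁ he h2 h4 hz hste hs1 G₁, h4.le⟩
  · -- (N)
    have h4' : finrank ℝ (S₂.V e.swap) ≤ n + 1 := h4
    have h2' := h2
    rw [h2] at h1 h3 h4
    rcases hEe.vertN h1 h2.symm h3 with ⟨hv1, hv2⟩ | h5 | h5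
    · have hg : ∀ {A' : Finset (ZZ n × ZZ n)} {σ' v' : ℕ} (S : Side n A' W D σ' v')
          (e' : ZZ n × ZZ n), EdgeS S e' → Iso (S.V e') → finrank ℝ (S.V e') ≤ n + 1 →
          ZInj (S.V e') ∨ WData v' (S.Pr e') e'.1 (S.V e') := by
        intro A' σ' v' S e' hS hI hd
        rcases Nat.lt_or_ge (finrank ℝ (S.V e')) (n + 1) with hlt | hge
        · exact Or.inl (hS.geni hd (Or.inl hlt))
        · exact hS.genw hI (le_antisymm hd hge)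
      rcases cnt_N S₁ he hv2 h1 (hg S₁ e hEe.side₁ h3 h4) hs1 G₁ with h6 | h6
      · exact Or.inl ⟨cnt_mono_N S₁ h2N h6, h4⟩
      · have h1' : e.swap.1 - e.swap.2 ∈ S₂.V e.swap := by rw [mem_swap_iff, h2]; exact h1
        rcases cnt_N S₂ he2 hv1 h1' (hg S₂ e.swap hEe.side₂ (by rw [h2]; exact h3)
          (by rw [h2]; exact h4)) hs2 G₂ with h7 | h7
        · exact Or.inr (Or.inl ⟨cnt_mono_N S₂ h2N h7, h4'⟩)
        · exact Or.inr (Or.inr ⟨hv1, hv2, h6, h7⟩)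
    · exact Or.inl ⟨Or.inl h5, h4⟩
    · exact Or.inr (Or.inl ⟨Or.inl h5, h4'⟩)

/-- **the case theorem** with dimensions, all edges -/
theorem hcase_X {σ₁ σ₂ v₁ v₂ : ℕ} (S₁ : Side n A W D σ₁ v₂) (S₂ : Side n (swp A) W D σ₂ v₁)
    {N G₁ G₂ : ℕ} (hE : ∀ e ∈ A, EdgeX S₁ S₂ G₁ G₂ e)
    (hsep₁ : ∀ e ∈ A, Sep (fun e' : ZZ n × ZZ n => pt e'.2) N (S₁.cls e))
    (hsep₂ : ∀ e ∈ swp A, Sep (fun e' : ZZ n × ZZ n => pt e'.2) N (S₂.cls e)) :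
    ∀ e ∈ A, (S₁.Cnt (2 * N) G₁ e ∧ finrank ℝ (S₁.V e) ≤ n + 1) ∨
      (S₂.Cnt (2 * N) G₂ e.swap ∧ finrank ℝ (S₂.V e.swap) ≤ n + 1) ∨ BB S₁ S₂ e :=
  fun e he => hcase_one S₁ S₂ (fun e he => (hE e he).ste) hsep₁ hsep₂ he (hE e he)

/-! ## `EdgeX` from `EdgeB` -/

/-- edge-dependent bound for isotropic classes: either the isotropic space contains `s - r`, or it
is a hyperplane of a maximal isotropic space of wrong type which contains `s - r`. -/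
def IsoE (S : Side n A W D σ v) (G : ℕ) : Prop :=
  ∀ e ∈ A, Iso (S.V e ⊔ Submodule.span ℝ {e.1 - e.2}) → finrank ℝ (S.V e) ≤ 2 * σ →
    (e.1 - e.2 ∈ S.V e ∨ (e.1 - e.2 ∉ S.V e ∧ finrank ℝ (S.V e) = n ∧
      ¬ ZInj (S.V e ⊔ Submodule.span ℝ {e.1 - e.2}))) → (S.cls e).card ≤ G

theorem IsoE.of_isoC {S : Side n A W D σ v} {G : ℕ} (h : IsoC S G) : IsoE S G :=
  fun e he hI hd _ => h e he (hI.mono le_sup_left) hd

theorem edgeX_of_edgeB {σ₁ σ₂ v₁ v₂ : ℕ} (S₁ : Side n A W D σ₁ v₂)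
    (S₂ : Side n (swp A) W D σ₂ v₁) {G₁ G₂ : ℕ} (h₁ : IsoE S₁ G₁) (h₂ : IsoE S₂ G₂)
    {e : ZZ n × ZZ n} (he : e ∈ A) (hE : EdgeB S₁ S₂ e) : EdgeX S₁ S₂ G₁ G₂ e where
  side₁ := hE.side₁
  side₂ := hE.side₂
  hperp := hE.hperp
  hw₁ := hE.hw₁
  hw₂ := hE.hw₂
  ste := hE.ste
  vertN := by
    intro a1 a2 a3
    have he2 : e.swap ∈ swp A := mem_swp.2 (by rwa [Prod.swap_swap])
    have hsup : S₁.V e ⊔ Submodule.span ℝ {e.1 - e.2} = S₁.V e :=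
      sup_eq_left.2 ((Submodule.span_singleton_le_iff_mem _ _).2 a1)
    rcases hE.vertN a1 a2 a3 with h | h | h
    · exact Or.inl h
    · exact Or.inr (Or.inl (h₁ e he (by rw [hsup]; exact a3) h (Or.inl a1)))
    · refine Or.inr (Or.inr (h₂ e.swap he2 ?_ ?_ (Or.inl ?_)))
      · rw [span_swap, ← a2, hsup]
        exact a3
      · rw [← a2]; exact h
      · rw [mem_swap_iff, ← a2]; exact a1
  vertA₁ := by
    intro a1 a2 a3 a4 a5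
    rcases hE.vertA₁ a1 a2 a3 a4 a5 with h | h
    · exact Or.inl (h₁ e he a3 h (Or.inr ⟨a1, a2, a4⟩))
    · exact Or.inr h
  vertA₂ := by
    intro a1 a2 a3 a4 a5
    have he2 : e.swap ∈ swp A := mem_swp.2 (by rwa [Prod.swap_swap])
    rcases hE.vertA₂ a1 a2 a3 a4 a5 with h | h
    · refine Or.inl (h₂ e.swap he2 ?_ h (Or.inr ⟨?_, a2, ?_⟩))
      · rw [span_swap]; exact a3
      · rw [mem_swap_iff]; exact a1
      · rw [span_swap]; exact a4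
    · exact Or.inr h

end Vale.Agent.P054.T3.H637
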