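import Vale.Agent.P054.T3.H637.FlatBound

set_option autoImplicit false
set_option linter.all false

/-!
# P054 / T3: the case theorem with a gain for full leaves

For `σ = n` the classes are counted by `FlatQ` (power gain against `t ^ n`), for `σ < n` as before.
-/

namespace Vale.Agent.P054.T3.H637

open MvPolynomial Finset Module
open Vale.Agent.P054.T2
open Vale.Agent.P054.T2.SecC
open Vale.Agent.P054.T2.H163
open Vale.Agent.P054.T2.H686 (mu Qf Bf zt dists E IsoB)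

variable {n : ℕ} {A : Finset (ZZ n × ZZ n)} {W D σ v : ℕ}

theorem card_cls_of_flatQ (S : Side n A W D σ v) {P : Finset (E n)} {Gf : ℕ} (hG : FlatQ n P Gf)
    (B : E n ≃ₗᵢ[ℝ] E n) (hA1 : ∀ e ∈ A, ∃ s ∈ P ×ˢ P, e.1 = zt B s)
    (hA : ∀ e ∈ A, ∃ r ∈ P ×ˢ P, e.2 = zt B r) {e : ZZ n × ZZ n} (he : e ∈ A)
    (hd : finrank ℝ (S.V e) ≤ n + 1) : (S.cls e).card ≤ Gf := by
  classical
  obtain ⟨s, hs, hse⟩ := hA1 e he
  set cl : Finset (E n × E n) := (P ×ˢ P).filter fun r => (e.1, zt B r) ∈ S.cls e with hcl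
  have h1 : S.cls e ⊆ cl.image fun r => (e.1, zt B r) := by
    intro e' he'
    have h2 := S.mem_cls.1 he'
    obtain ⟨r, hr, hre⟩ := hA e' h2.1
    have h3 : e' = (e.1, zt B r) := Prod.ext h2.2.1 hre
    refine Finset.mem_image.2 ⟨r, ?_, h3.symm⟩
    rw [hcl, Finset.mem_filter]
    exact ⟨hr, h3 ▸ he'⟩
  refine ((Finset.card_le_card h1).trans Finset.card_image_le).trans ?_
  refine hG B (S.V e) e.2 s hd cl (Finset.filter_subset _ _) (fun r hr => ?_) fun r hr => ?_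
  · rw [hcl, Finset.mem_filter] at hr
    exact S.sub_mem_V hr.2
  · rw [hcl, Finset.mem_filter] at hr
    have h2 := S.hQ _ (S.mem_cls.1 hr.2).1
    rwa [hse] at h2

/-- countable with a gain: `G` is the class bound for `σ < n`, `Gf` for `σ = n` -/
def CntG (S : Side n A W D σ v) (N G Gf : ℕ) (e : ZZ n × ZZ n) : Prop :=
  (σ < n ∧ S.Cnt N G e) ∨ (σ = n ∧ (S.cls e).card ≤ Gf)

/-- **the case theorem with a gain for full leaves** -/
theorem hcase_G {σ₁ σ₂ v₁ v₂ : ℕ} (S₁ : Side n A W D σ₁ v₂) (S₂ : Side n (swp A) W D σ₂ v₁)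
    {G₁ G₂ : ℕ} (hE : ∀ e ∈ A, EdgeX S₁ S₂ G₁ G₂ e)
    {P : Finset (E n)} {t : ℕ} {Gf : ℕ} (ht : (dists P).card ≤ t) (hF : FlatQ n P Gf)
    (B : E n ≃ₗᵢ[ℝ] E n) (hA1 : ∀ e ∈ A, ∃ s ∈ P ×ˢ P, e.1 = zt B s)
    (hA2 : ∀ e ∈ A, ∃ r ∈ P ×ˢ P, e.2 = zt B r) :
    ∀ e ∈ A, CntG S₁ (8 * t) G₁ Gf e ∨ CntG S₂ (8 * t) G₂ Gf e.swap ∨ BB S₁ S₂ e := by
  have hA1' : ∀ e ∈ swp A, ∃ r ∈ P ×ˢ P, e.2 = zt B r := by
    intro e he
    exact hA1 e.swap (mem_swp.1 he)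
  have hA2' : ∀ e ∈ swp A, ∃ r ∈ P ×ˢ P, e.1 = zt B r := by
    intro e he
    exact hA2 e.swap (mem_swp.1 he)
  intro e he
  have he2 : e.swap ∈ swp A := mem_swp.2 (by rwa [Prod.swap_swap])
  have h0 := hcase_X S₁ S₂ (N := 4 * t) hE (fun e _ => sep_cls S₁ ht B hA2 e)
    (fun e _ => sep_cls S₂ ht B hA1' e) e he
  have h8 : 2 * (4 * t) = 8 * t := by ring
  rw [h8] at h0
  rcases h0 with ⟨h1, h2⟩ | ⟨h1, h2⟩ | h
  · left
    rcases lt_or_eq_of_le S₁.hσ with h | h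
    · exact Or.inl ⟨h, h1⟩
    · exact Or.inr ⟨h, card_cls_of_flatQ S₁ hF B hA1 hA2 he h2⟩
  · right; left
    rcases lt_or_eq_of_le S₂.hσ with h | h
    · exact Or.inl ⟨h, h1⟩
    · exact Or.inr ⟨h, card_cls_of_flatQ S₂ hF B hA2' hA1' he2 h2⟩
  · exact Or.inr (Or.inr h)

end Vale.Agent.P054.T3.H637
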