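import Vale.Agent.P054.T2.H686.Ind
import Mathlib.Analysis.InnerProductSpace.Projection.FiniteDimensional

set_option autoImplicit false
set_option linter.all false

/-!
# P054 / T3, d = 3: determinants of linear isometries and their fixed spaces; isotropic subspaces
lie in graphs of isometries
-/

namespace Vale.Agent.P054.T3.H637

open Module Submodule
open Vale.Agent.P054.T2.H686

section General

variable {F : Type*} [NormedAddCommGroup F] [InnerProductSpace ℝ F] [FiniteDimensional ℝ F]

/-- the determinant of a linear isometry -/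
noncomputable def dt (φ : F ≃ₗᵢ[ℝ] F) : ℝ := LinearMap.det (φ.toLinearEquiv : F →ₗ[ℝ] F)

/-- the fixed space of a linear isometry -/
def fixS (φ : F ≃ₗᵢ[ℝ] F) : Submodule ℝ F :=
  LinearMap.ker ((LinearMap.id : F →ₗ[ℝ] F) - (φ.toLinearEquiv : F →ₗ[ℝ] F))

theorem mem_fixS {φ : F ≃ₗᵢ[ℝ] F} {x : F} : x ∈ fixS φ ↔ φ x = x := by
  unfold fixS
  rw [LinearMap.mem_ker, LinearMap.sub_apply, sub_eq_zero]
  exact eq_comm

theorem dt_mul (φ ψ : F ≃ₗᵢ[ℝ] F) : dt (φ * ψ) = dt φ * dt ψ := by
  unfold dt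
  rw [← LinearMap.det_comp]
  rfl

theorem dt_one : dt (1 : F ≃ₗᵢ[ℝ] F) = 1 := by
  unfold dt
  have : ((1 : F ≃ₗᵢ[ℝ] F).toLinearEquiv : F →ₗ[ℝ] F) = LinearMap.id := rfl
  rw [this, LinearMap.det_id]

theorem dt_refl {v : F} (hv : v ≠ 0) : dt ((ℝ ∙ v)ᗮ.reflection) = -1 := by
  unfold dt
  have h := Submodule.det_reflection (𝕜 := ℝ) (E := F) ((ℝ ∙ v)ᗮ)
  rw [Submodule.orthogonal_orthogonal, finrank_span_singleton hv, pow_one] at h
  exact h

theorem dt_prod_refl (l : List F) (hl : ∀ v ∈ l, v ≠ 0) :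
    dt ((l.map fun v => (ℝ ∙ v)ᗮ.reflection).prod) = (-1) ^ l.length := by
  induction l with
  | nil => simpa using dt_one
  | cons v l ih =>
    rw [List.map_cons, List.prod_cons, dt_mul, dt_refl (hl v (List.mem_cons_self ..)),
      ih (fun w hw => hl w (List.mem_cons_of_mem _ hw)), List.length_cons, pow_succ]
    ring

/-- the fixed space of a product of reflections contains the orthogonal complement of the vectors -/
theorem orth_le_fixS (l : List F) [DecidableEq F] :
    (Submodule.span ℝ (l.toFinset : Set F))ᗮ ≤ fixS ((l.map fun v => (ℝ ∙ v)ᗮ.reflection).prod) := by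
  induction l with
  | nil =>
    intro x _
    rw [mem_fixS]
    rfl
  | cons v l ih =>
    intro x hx
    rw [mem_fixS, List.map_cons, List.prod_cons]
    have h1 : x ∈ (Submodule.span ℝ (l.toFinset : Set F))ᗮ := by
      refine Submodule.orthogonal_le (Submodule.span_mono ?_) hx
      intro y hy
      simp only [List.coe_toFinset, Set.mem_setOf_eq] at hy ⊢
      exact List.mem_cons_of_mem _ hy
    have h2 := mem_fixS.1 (ih h1)
    change (ℝ ∙ v)ᗮ.reflection ((l.map fun v => (ℝ ∙ v)ᗮ.reflection).prod x) = x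
    rw [h2]
    refine Submodule.reflection_mem_subspace_eq_self ?_
    refine Submodule.orthogonal_le ?_ hx
    rw [Submodule.span_singleton_le_iff_mem]
    refine Submodule.subset_span ?_
    simp

/-- **parity**: the determinant from the dimension of the fixed space, when the fixed space is a
line -/
theorem dt_of_fix (φ : F ≃ₗᵢ[ℝ] F) : dt φ = (-1) ^ (finrank ℝ F - finrank ℝ (fixS φ)) := by
  classical
  have h0 : finrank ℝ (fixS φ) + finrank ℝ (fixS φ)ᗮ = finrank ℝ F :=
    (fixS φ).finrank_add_finrank_orthogonal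
  obtain ⟨l, hl, hφ⟩ := φ.reflections_generate_dim_aux (n := finrank ℝ (fixS φ)ᗮ) (by
    exact le_rfl)
  have h1 := orth_le_fixS l
  rw [← hφ] at h1
  have h2 := Submodule.finrank_mono h1
  have h3 : finrank ℝ (Submodule.span ℝ (l.toFinset : Set F)) +
      finrank ℝ (Submodule.span ℝ (l.toFinset : Set F))ᗮ = finrank ℝ F :=
    Submodule.finrank_add_finrank_orthogonal _
  have h4 : finrank ℝ (Submodule.span ℝ (l.toFinset : Set F)) ≤ l.length :=
    (finrank_span_finset_le_card _).trans (List.toFinset_card_le l)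
  have h5 : l.length = finrank ℝ (fixS φ)ᗮ := by omega
  have h6 : ∀ v ∈ l, v ≠ 0 := by
    rintro v hv rfl
    have h7 : Submodule.span ℝ (l.toFinset : Set F) =
        Submodule.span ℝ ((l.toFinset.erase 0 : Finset F) : Set F) := by
      rw [Finset.coe_erase]
      exact (Submodule.span_sdiff_singleton_zero).symm
    have h8 : finrank ℝ (Submodule.span ℝ (l.toFinset : Set F)) ≤ l.length - 1 := by
      rw [h7]
      refine (finrank_span_finset_le_card _).trans ?_
      rw [Finset.card_erase_of_mem (List.mem_toFinset.2 hv)]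
      exact Nat.sub_le_sub_right (List.toFinset_card_le l) 1
    have h9 : 0 < l.length := List.length_pos_of_mem hv
    omega
  rw [show finrank ℝ F - finrank ℝ (fixS φ) = l.length by omega]
  conv_lhs => rw [hφ]
  exact dt_prod_refl l h6

theorem dt_eq_or (φ : F ≃ₗᵢ[ℝ] F) : dt φ = 1 ∨ dt φ = -1 := by
  rw [dt_of_fix]
  exact neg_one_pow_eq_or ℝ _

/-- an isometry with given values on a proper subspace exists with both determinants -/
theorem exists_dt (φ : F ≃ₗᵢ[ℝ] F) (S : Submodule ℝ F) (hS : finrank ℝ S < finrank ℝ F) {ε : ℝ}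
    (hε : ε = 1 ∨ ε = -1) : ∃ ψ : F ≃ₗᵢ[ℝ] F, dt ψ = ε ∧ ∀ x ∈ S, ψ x = φ x := by
  by_cases h : dt φ = ε
  · exact ⟨φ, h, fun _ _ => rfl⟩
  have h0 : finrank ℝ S + finrank ℝ Sᗮ = finrank ℝ F := S.finrank_add_finrank_orthogonal
  have : Nontrivial Sᗮ := nontrivial_of_finrank_pos (R := ℝ) (by omega)
  obtain ⟨v, hv⟩ := exists_ne (0 : Sᗮ)
  have hv0 : (v : F) ≠ 0 := fun h => hv (Subtype.ext h)
  refine ⟨φ * (ℝ ∙ (v : F))ᗮ.reflection, ?_, ?_⟩
  · rw [dt_mul, dt_refl hv0]
    rcases dt_eq_or φ with h1 | h1 <;> rcases hε with h2 | h2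
    · exact absurd (h1.trans h2.symm) h
    · rw [h1, h2]; ring
    · rw [h1, h2]; ring
    · exact absurd (h1.trans h2.symm) h
  · intro x hx
    change φ ((ℝ ∙ (v : F))ᗮ.reflection x) = φ x
    congr 1
    refine Submodule.reflection_mem_subspace_eq_self ?_
    rw [Submodule.mem_orthogonal_singleton_iff_inner_left]
    exact v.2 x hx

end General

end Vale.Agent.P054.T3.H637
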