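import Vale.Agent.P054.T3.H637.D3Det
import Vale.Agent.P054.T3.H637.CasePS

set_option autoImplicit false
set_option linter.all false

/-!
# P054 / T3, d = 3: isotropic subspaces lie in graphs of linear isometries; class bounds from the
absence of rich isometries
-/

namespace Vale.Agent.P054.T3.H637

open Module Submodule
open Vale.Agent.P054.T2
open Vale.Agent.P054.T2.SecC
open Vale.Agent.P054.T2.H163
open Vale.Agent.P054.T2.H686 (mu Qf Bf zt dists E IsoB toX toY toX_zt toY_zt Qf_eq_norm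
  toX_injOn_isotropic eq_zero_of_toX_toY)
open Vale.Agent.P054.T2.H192 (Iso)

variable {n : ℕ}

theorem norm_toX_eq {V : Submodule ℝ (ZZ n)} (hV : Iso V) {w : ZZ n} (hw : w ∈ V) :
    ‖toX w‖ = ‖toY w‖ := by
  have h1 := hV w hw
  rw [Qf_eq_norm, sub_eq_zero] at h1
  exact (sq_eq_sq₀ (norm_nonneg _) (norm_nonneg _)).1 h1

theorem toY_injOn_isotropic {V : Submodule ℝ (ZZ n)} (hV : Iso V) {w : ZZ n} (hw : w ∈ V)
    (h : toY w = 0) : w = 0 := by
  have h1 := norm_toX_eq hV hw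
  rw [h, norm_zero, norm_eq_zero] at h1
  exact eq_zero_of_toX_toY h1 h

/-- an isotropic subspace lies in the graph of a linear isometry -/
theorem exists_graph {V : Submodule ℝ (ZZ n)} (hV : Iso V) :
    ∃ φ : E n ≃ₗᵢ[ℝ] E n, ∀ w ∈ V, toX w = φ (toY w) := by
  have hinj : Function.Injective ((toY (n := n)).domRestrict V) := by
    rw [injective_iff_map_eq_zero]
    intro w hw
    exact Subtype.ext (toY_injOn_isotropic hV w.2 hw)
  let e := LinearEquiv.ofInjective ((toY (n := n)).domRestrict V) hinj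
  let L : LinearMap.range ((toY (n := n)).domRestrict V) →ₗ[ℝ] E n :=
    (toX (n := n)) ∘ₗ V.subtype ∘ₗ (e.symm : _ →ₗ[ℝ] V)
  have hL : ∀ y, ‖L y‖ = ‖y‖ := by
    intro y
    have h1 : L y = toX ((e.symm y : V) : ZZ n) := rfl
    rw [h1, norm_toX_eq hV (e.symm y).2]
    have h2 : e (e.symm y) = y := e.apply_symm_apply y
    have h3 : ((e (e.symm y) : LinearMap.range ((toY (n := n)).domRestrict V)) : E n) =
        toY ((e.symm y : V) : ZZ n) := rfl
    rw [← h3, h2]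
    rfl
  let L' : LinearMap.range ((toY (n := n)).domRestrict V) →ₗᵢ[ℝ] E n := ⟨L, hL⟩
  let φ := L'.extend
  refine ⟨φ.toLinearIsometryEquiv rfl, fun w hw => ?_⟩
  have h1 : φ (toY w) = L' (e ⟨w, hw⟩) := by
    have h2 : (toY w : E n) = ((e ⟨w, hw⟩ : LinearMap.range ((toY (n := n)).domRestrict V)) :
      E n) := rfl
    rw [h2]
    exact LinearIsometry.extend_apply L' (e ⟨w, hw⟩)
  have h2 : (φ.toLinearIsometryEquiv rfl) (toY w) = φ (toY w) := rfl
  rw [h2, h1]
  have h3 : L' (e ⟨w, hw⟩) = toX ((e.symm (e ⟨w, hw⟩) : V) : ZZ n) := rfl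
  rw [h3, e.symm_apply_apply]

theorem finrank_map_toY {V : Submodule ℝ (ZZ n)} (hV : Iso V) :
    finrank ℝ (V.map (toY (n := n))) = finrank ℝ V := by
  have hinj : Function.Injective ((toY (n := n)).domRestrict V) := by
    rw [injective_iff_map_eq_zero]
    intro w hw
    exact Subtype.ext (toY_injOn_isotropic hV w.2 hw)
  have h2 := LinearMap.finrank_range_of_inj hinj
  rw [LinearMap.range_domRestrict] at h2
  exact h2

/-- an isotropic subspace of dimension at most `n` lies in graphs of both determinants -/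
theorem exists_graph_dt {V : Submodule ℝ (ZZ n)} (hV : Iso V) (hd : finrank ℝ V ≤ n) {ε : ℝ}
    (hε : ε = 1 ∨ ε = -1) :
    ∃ φ : E n ≃ₗᵢ[ℝ] E n, dt φ = ε ∧ ∀ w ∈ V, toX w = φ (toY w) := by
  obtain ⟨φ, hφ⟩ := exists_graph hV
  have h1 : finrank ℝ (E n) = n + 1 := by simp
  obtain ⟨ψ, h2, h3⟩ := exists_dt φ (V.map (toY (n := n))) (by
    rw [finrank_map_toY hV, h1]; omega) hε
  refine ⟨ψ, h2, fun w hw => ?_⟩
  rw [h3 _ (Submodule.mem_map_of_mem hw)]
  exact hφ w hw

/-- a maximal isotropic subspace whose kernel of `ζ` is a line (wrong type) is in the graph of an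
isometry of determinant `(-1) ^ n` -/
theorem exists_graph_wrong {V : Submodule ℝ (ZZ n)} (hV : Iso V) (hd : finrank ℝ V = n + 1)
    {n₀ : ZZ n} (hn₀ : n₀ ∈ V) (hne : n₀ ≠ 0) (h0 : n₀.1 = 0)
    (hker : ∀ x ∈ V, x.1 = 0 → ∃ c : ℝ, x = c • n₀) :
    ∃ φ : E n ≃ₗᵢ[ℝ] E n, dt φ = (-1) ^ n ∧ ∀ w ∈ V, toX w = φ (toY w) := by
  obtain ⟨φ, hφ⟩ := exists_graph hV
  refine ⟨φ, ?_, hφ⟩
  have h1 : finrank ℝ (E n) = n + 1 := by simp
  have hz : ∀ w : ZZ n, w.1 = 0 ↔ toX w = toY w := by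
    intro w
    constructor
    · intro h
      ext i
      change (w.1 i + w.2 i) / 2 = (w.2 i - w.1 i) / 2
      rw [h]
      simp
    · intro h
      funext i
      have h2 : (w.1 i + w.2 i) / 2 = (w.2 i - w.1 i) / 2 := congrArg (fun x : E n => x i) h
      simp only [Pi.zero_apply]
      linarith
  have htop : V.map (toY (n := n)) = ⊤ := by
    refine Submodule.eq_top_of_finrank_eq ?_
    rw [finrank_map_toY hV, hd, h1]
  have hfix : fixS φ = ℝ ∙ (toY n₀) := by
    apply le_antisymm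
    · intro y hy
      have hy' : y ∈ V.map (toY (n := n)) := by rw [htop]; exact Submodule.mem_top
      obtain ⟨w, hw, rfl⟩ := hy'
      have h2 : w.1 = 0 := by
        rw [hz, hφ w hw]
        exact mem_fixS.1 hy
      obtain ⟨c, hc⟩ := hker w hw h2
      rw [hc, map_smul]
      exact Submodule.smul_mem _ _ (Submodule.mem_span_singleton_self _)
    · rw [Submodule.span_singleton_le_iff_mem, mem_fixS, ← hφ n₀ hn₀]
      exact (hz n₀).1 h0
  have hY : toY n₀ ≠ 0 := fun h => hne (toY_injOn_isotropic hV hn₀ h)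
  rw [dt_of_fix, hfix, finrank_span_singleton hY, h1]
  rfl

/-- at the edge `(s, r)` every isometry with determinant `ε` mapping `s.2, r.2` to `s.1, r.1` maps
at most `M` points of `P` to `P` -/
def NoRich (P : Finset (E n)) (M : ℕ) (ε : ℝ) (s r : E n × E n) : Prop :=
  ∀ Φ : E n ≃ₗᵢ[ℝ] E n, dt Φ = ε → r.1 - s.1 = Φ (r.2 - s.2) →
    ∀ cl : Finset (E n × E n), cl ⊆ P ×ˢ P → (∀ x ∈ cl, x.1 - s.1 = Φ (x.2 - s.2)) → cl.card ≤ M

variable {A : Finset (ZZ n × ZZ n)} {W D σ v : ℕ}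

/-- a class in an isotropic subspace (containing `s - r`) which is not of the right type -/
theorem card_cls_of_noRich (S : Side n A W D σ v) {P : Finset (E n)} {M : ℕ}
    (B : E n ≃ₗᵢ[ℝ] E n) (hA2 : ∀ e ∈ A, ∃ r ∈ P ×ˢ P, e.2 = zt B r) {e : ZZ n × ZZ n}
    (he : e ∈ A) {s r : E n × E n} (hs : e.1 = zt B s) (hr : e.2 = zt B r)
    (hN : NoRich P M ((-1) ^ n * dt B) s r) (hE : EdgeS S e)
    (hI : Iso (S.V e ⊔ Submodule.span ℝ {e.1 - e.2}))
    (hd : finrank ℝ (S.V e ⊔ Submodule.span ℝ {e.1 - e.2} : Submodule ℝ (ZZ n)) ≤ n ∨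
      (finrank ℝ (S.V e ⊔ Submodule.span ℝ {e.1 - e.2} : Submodule ℝ (ZZ n)) = n + 1 ∧
      ¬ ZInj (S.V e ⊔ Submodule.span ℝ {e.1 - e.2}))) : (S.cls e).card ≤ M := by
  classical
  set U := S.V e ⊔ Submodule.span ℝ {e.1 - e.2} with hU
  obtain ⟨φ, hφd, hφ⟩ : ∃ φ : E n ≃ₗᵢ[ℝ] E n, dt φ = (-1) ^ n ∧ ∀ w ∈ U, toX w = φ (toY w) := by
    rcases hd with hd | ⟨hd, hz⟩
    · exact exists_graph_dt hI hd (neg_one_pow_eq_or ℝ n)
    · rcases hE.genww hI hd with h | ⟨n₀, h1, h2, h3, h4, -⟩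
      · exact absurd h hz
      · exact exists_graph_wrong hI hd h1 h2 h3 h4
  -- all differences
  have key : ∀ x y : E n × E n, zt B x - zt B y ∈ U → x.1 - y.1 = (φ * B) (x.2 - y.2) := by
    intro x y hxy
    have h1 := hφ _ hxy
    rw [map_sub, map_sub, toX_zt, toX_zt, toY_zt, toY_zt, ← map_sub B] at h1
    exact h1
  have hw : e.1 - e.2 ∈ U := Submodule.mem_sup_right (Submodule.mem_span_singleton_self _)
  set cl : Finset (E n × E n) := (P ×ˢ P).filter fun x => (e.1, zt B x) ∈ S.cls e with hcl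
  have h1 : S.cls e ⊆ cl.image fun r => (e.1, zt B r) := by
    intro e' he'
    have h2 := S.mem_cls.1 he'
    obtain ⟨r', hr', hre⟩ := hA2 e' h2.1
    have h3 : e' = (e.1, zt B r') := Prod.ext h2.2.1 hre
    refine Finset.mem_image.2 ⟨r', ?_, h3.symm⟩
    rw [hcl, Finset.mem_filter]
    exact ⟨hr', h3 ▸ he'⟩
  refine ((Finset.card_le_card h1).trans Finset.card_image_le).trans ?_
  refine hN (φ * B) (by rw [dt_mul, hφd]) ?_ cl (Finset.filter_subset _ _) fun x hx => ?_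
  · refine key r s ?_
    rw [← hs, ← hr, ← neg_sub]
    exact U.neg_mem hw
  · rw [hcl, Finset.mem_filter] at hx
    refine key x s ?_
    have h2 : zt B x - e.2 ∈ S.V e := S.sub_mem_V hx.2
    have h3 : zt B x - zt B s = (zt B x - e.2) - (e.1 - e.2) := by
      rw [hs]; abel
    rw [h3]
    exact U.sub_mem (Submodule.mem_sup_left h2) hw

end Vale.Agent.P054.T3.H637
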